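import Vale.Agent.P235.ST.H945.All6

/-! P235: operations over the planar graphs under which `c₁` stays bounded. -/

namespace Vale.Agent.Results.P235.GnrsOperations

open Vale.Agent.P235 Vale.Agent.P235.ST.H945

/-- There is an absolute constant `C` such that for all finite connected graphs `G`
(1) `c₁(G) ≤ C (w + log (t + 2))`, even `EdgeIso`, if `G` arises by gluing along edges (any number of
times) from planar graphs, graphs of treewidth at most `3`, and graphs of pathwidth or shortest path
depth at most `w` after deleting `t` vertices;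
(2) `c₁(G) ≤ K(k, w, t)` for edge sums of planar graphs, graphs of treewidth at most `k` and the others
in (1);
(3) `c₁(G) ≤ K(w)` for planar graphs with a vortex of depth `w`;
(4) for all `w`, `j` there is `K` with `c₁(G) ≤ K` for all `G` which arise in `j` rounds of the operations
`AllOps` from graphs which after deleting at most `w` vertices lie on closed surfaces, orientable or
not, of Euler genus at most `w`, graphs of treewidth at most `w`, as in (2) with `k = w = t`, as in
(3), or with `c₁ ≤ w`. -/
theorem result : ∃ C : ℝ, 1 ≤ C ∧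
    (∀ (w t : ℕ) (V : Type) [Finite V] (G : SimpleGraph V), G.Connected →
      EdgeSumOf (ST.H626.PlanePiece w t) G →
        EdgeIso G (C * (w + Real.log (t + 2))) ∧ DistortionLE G (C * (w + Real.log (t + 2)))) ∧
    (∀ k w t : ℕ, ∃ K : ℝ, ∀ (V : Type) [Finite V] (G : SimpleGraph V), G.Connected →
      EdgeSumOf (PlaneTw k w t) G → EdgeIso G K ∧ DistortionLE G K) ∧
    (∀ w : ℕ, ∃ K : ℝ, ∀ (V : Type) [Finite V] (G : SimpleGraph V), G.Connected →
      ST.H742.PlaneVortex w V G → DistortionLE G K) ∧
    (∀ w j : ℕ, ∃ K : ℝ, ∀ (V : Type) [Finite V] (G : SimpleGraph V), G.Connected →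
      AllOps (fun V G => NearAnySurf w w V G ∨ TreewidthLE G w ∨ EdgeSumOf (PlaneTw w w w) G ∨
        ST.H742.PlaneVortex w V G ∨ DistortionLE G w) w j G → DistortionLE G K) := by
  obtain ⟨C, hC, -, -, h3, h4, h5, h6⟩ := all6
  exact ⟨C, hC, h3, h4, h5, h6⟩

end Vale.Agent.Results.P235.GnrsOperations
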