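import Vale.Agent.P235.ST.H945.FinalW
import Vale.Agent.P235.ST.H172.Topo

/-! P235: `c₁` is bounded on the class of planar graphs. -/

namespace Vale.Agent.Results.P235.PlanarBounded

open Vale.Agent.P235

/-- There is an absolute constant `C` such that
(1) `c₁(G) ≤ C` for every finite connected planar graph `G`: for all positive edge lengths the
shortest-path metric embeds into `L₁` with distortion at most `C`;
(2) `c₁(G) ≤ C (log (g + 2) + log (t + 2))` for every finite connected graph `G` in which deleting
some `t` vertices leaves components of (orientable) Euler genus at most `g`. -/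
theorem result : ∃ C : ℝ, 1 ≤ C ∧
    (∀ (V : Type) [Finite V] (G : SimpleGraph V), G.Connected →
      (H134.Planar G ∨ ∃ σ : Equiv.Perm G.Dart, PlaneMap G σ) → DistortionLE G C) ∧
    ∀ (g t n : ℕ) (V : Type) [Finite V] (G : SimpleGraph V), G.Connected → NearSurf n g t V G →
      DistortionLE G (C * (Real.log (g + 2) + Real.log (t + 2))) := by
  obtain ⟨C, hC, h1, h2⟩ := ST.H945.planarNear
  refine ⟨C, hC, fun V _ G hc hG => ?_, h2⟩
  rcases hG with hG | hG
  · exact ST.H172.planar_of_plane h1 V G hc hG
  · exact h1 V G hc hG

end Vale.Agent.Results.P235.PlanarBounded
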