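import Vale.Agent.P235.LL.H565.Final
import Vale.Agent.P235.H538.Cor

/-! P235: planar graph metrics embed into `L₁` with distortion `O(log log n)`. -/

namespace Vale.Agent.Results.P235.PlanarLogLog

open Vale.Agent.P235

/-- There is an absolute constant `C` such that for all finite connected graphs `G`, with
`LL n = 1 + log₂ (1 + log₂ n)` (`DistortionLE G K` is `c₁(G) ≤ K`):
(1) if `G` is planar, then `c₁(G) ≤ C LL(|V|)`;
(2) if `G` has at most `n` vertices, and deleting some `t` vertices leaves components of Euler genus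
at most `g`, then `c₁(G) ≤ C (LL n + log (g + 2) + log (t + 2))`;
(3) if for all lengths `k` rounds, each of which deletes from every component a union of at most `s`
lanes (for example `s` vertices, or `s` shortest paths with a common end) or the vertices on a face
of a rotation system of Euler genus at most `g'`, leave components as in (2), then
`c₁(G) ≤ C (LL n + log (g + 2) + log (t + 2) + k (g' + log (s + 2)))`;
(4) if `G` has a path decomposition of adhesion at most `w`, with bags of any size, such that the
components of the subgraphs induced by the bags are as in (2), then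
`c₁(G) ≤ C (LL n + log (g + 2) + log (t + 2) + √w)`. -/
theorem result : ∃ C : ℝ, 1 ≤ C ∧
    (∀ (V : Type) [Finite V] (G : SimpleGraph V), G.Connected →
      (∃ σ : Equiv.Perm G.Dart, PlaneMap G σ) → DistortionLE G (C * Swp.LL (Nat.card V))) ∧
    (∀ (n g t : ℕ) (V : Type) [Finite V] (G : SimpleGraph V), G.Connected → NearSurf n g t V G →
      DistortionLE G (C * (Swp.LL n + Real.log (g + 2) + Real.log (t + 2)))) ∧
    (∀ (n g t s g' k : ℕ) (V : Type) [Finite V] (G : SimpleGraph V), G.Connected →
      (∀ ℓ : Sym2 V → ℝ, (∀ e ∈ G.edgeSet, 0 < ℓ e) → SurfStrip (NearSurf n g t) s g' k G ℓ) →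
      DistortionLE G (C * (Swp.LL n + Real.log (g + 2) + Real.log (t + 2) +
        k * (g' + Real.log (s + 2))))) ∧
    (∀ (n g t w N : ℕ) (V : Type) [Finite V] (G : SimpleGraph V), G.Connected →
      ∀ (B : Fin N → Set V), PathDec G w B →
      (∀ i, ∀ u ∈ B i, NearSurf n g t _ (G.induce (compSet G (B i)ᶜ u))) →
      DistortionLE G (C * (Swp.LL n + Real.log (g + 2) + Real.log (t + 2) + √w))) := by
  obtain ⟨C₀, hC₀, h⟩ := LL.pl
  obtain ⟨A, hA, h1, h2, h3, -⟩ := H538.cor hC₀ h
  have hm1 : C₀ ≤ max C₀ A := le_max_left _ _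
  have hm2 : A ≤ max C₀ A := le_max_right _ _
  have hlog : ∀ a : ℕ, 0 ≤ Real.log ((a : ℝ) + 2) := fun a =>
    Real.log_nonneg (by have : (0 : ℝ) ≤ a := Nat.cast_nonneg a; linarith)
  refine ⟨max C₀ A, hC₀.trans hm1, ?_, ?_, ?_, ?_⟩
  · intro V _ G hc hσ
    exact (h V G hc hσ).mono (mul_le_mul_of_nonneg_right hm1 (Swp.LL_nonneg _))
  · intro n g t V _ G hc hG
    have := Swp.LL_nonneg n
    have := hlog g
    have := hlog t
    exact (h1 n g t V G hc hG).mono (mul_le_mul_of_nonneg_right hm2 (by positivity))
  · intro n g t s g' k V _ G hc hG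
    have := Swp.LL_nonneg n
    have := hlog g
    have := hlog t
    have := hlog s
    exact (h2 n g t s g' k V G hc hG).mono (mul_le_mul_of_nonneg_right hm2 (by positivity))
  · intro n g t w N V _ G hc B hB hG
    have := Swp.LL_nonneg n
    have := hlog g
    have := hlog t
    exact (h3 n g t w N V G hc B hB hG).mono (mul_le_mul_of_nonneg_right hm2 (by positivity))

end Vale.Agent.Results.P235.PlanarLogLog
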