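import Vale.Agent.P235.LL.H565.StFinal

/-! P235: the planar case is equivalent to the case of plane graphs with an edge `st` all of whose
vertices lie on shortest `s`-`t` paths. -/

namespace Vale.Agent.Results.P235.PlanarToST

open Vale.Agent.P235 Vale.Agent.P235.LL

/-- `StBound n K`: all plane graphs with at most `n` vertices, positive edge lengths and an edge `st`
such that every vertex lies on a shortest `s`-`t` path embed into `L₁` with distortion `K`.
(1) There is an absolute constant `C` such that `StBound (n + 1) K` implies `c₁(G) ≤ C K` for all
planar graphs `G` with at most `n` vertices, and `c₁(G) ≤ C (K + log (g + 2) + log (t + 2))` for all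
graphs `G` with at most `n` vertices in which deleting some `t` vertices leaves components of Euler
genus at most `g`.
(2) `c₁` is bounded on the class of planar graphs if and only if `StBound n K` holds for some `K`
and all `n`. -/
theorem result :
    (∃ C : ℝ, 1 ≤ C ∧ ∀ (n : ℕ) (K : ℝ), 1 ≤ K → StBound (n + 1) K →
      (∀ (V : Type) [Finite V] (G : SimpleGraph V), G.Connected →
        (∃ σ : Equiv.Perm G.Dart, PlaneMap G σ) → Nat.card V ≤ n → DistortionLE G (C * K)) ∧
      ∀ (g t : ℕ) (V : Type) [Finite V] (G : SimpleGraph V), G.Connected → NearSurf n g t V G →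
        DistortionLE G (C * (K + Real.log (g + 2) + Real.log (t + 2)))) ∧
    ((∃ K : ℝ, ∀ (V : Type) [Finite V] (G : SimpleGraph V), G.Connected →
      (∃ σ : Equiv.Perm G.Dart, PlaneMap G σ) → DistortionLE G K) ↔
      ∃ K : ℝ, ∀ n, StBound n K) :=
  ⟨near_reduction, planar_iff⟩

end Vale.Agent.Results.P235.PlanarToST
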